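import Vale.Agent.P281.H152.RC.Spec
import Vale.Agent.P281.H125.HKT.Push
import Vale.Agent.P281.H399.HKT.Gen
import Vale.Agent.P281.H751.HKT.BasT
import Vale.Agent.P281.H406.HK.Forms

/-!
# P281, project RADC (helper118), block R3: more sheets of the same manifold
-/

open Set Filter Metric MeasureTheory Vale.Agent.P272.K
open scoped Topology ContDiff ComplexConjugate ComplexOrder

set_option linter.unusedSectionVars false

noncomputable section

namespace Vale.Agent.P281.H118.RC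

open Vale.Agent.P281.H64.TK Vale.Agent.P281.H64.TK.TS Vale.Agent.P281.H83.HK
open Vale.Agent.P281.H83.HKT (dt uu thj lst W4 thl Hol1 GenU bT dF RatRad)
open Vale.Agent.P281.H864.K (holCompat_symm holCompat_refl jac_id add_compat)
open Vale.Agent.P281.H399.QT (Qs One1 pj quo pj_smul one_act kah_quo t2_quo)
open Vale.Agent.P281.H399.TS (htr_refl exists_htr')
open Vale.Agent.P281.H125.HKT (pbK pbK_eq pbK_kah hm_one Row ratRad_of)

section
variable {d : ℕ} {E K : Type} [TopologicalSpace E] [Group K] [MulAction K E]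
  {S S' : Sheets d E K} {em : Fin S.N → Fin S'.N}

/-- More sheets: the same complex structure. -/
theorem hc_sub (hσ : ∀ i, S'.σ (em i) = S.σ i) : HolCompat S S' := by
  intro i j z hz w hw γ he
  obtain ⟨θ, h1, h2, h3, h4⟩ := holCompat_refl S' (em i) j z hz w hw γ (by rw [hσ]; exact he)
  refine ⟨θ, h1, h2, h3, ?_⟩
  rw [hσ] at h4
  exact h4

theorem isBas_of {a : ℕ} (hc : HolCompat S S') {F : E → Fin a → ℂ} {c : K → Fin a → ℂ}
    (h : IsBas S F c) : IsBas S' F c where
  add j := add_compat hc (h.add j)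
  indep := h.indep
  span f b hf := h.span f b (add_compat (holCompat_symm hc) hf)

variable [ContinuousConstSMul K E]

theorem quo_σ (hσ : ∀ i, S'.σ (em i) = S.σ i) (i : Fin S.N) :
    (quo S').σ (em i) = (quo S).σ i := by
  funext z
  exact congrArg (fun f : Cm d → E => pj K (f z)) (hσ i)

theorem kah_of_quo {w : Fin S.N → Cm d → Matrix (Fin d) (Fin d) ℂ} (h : Kah (quo S) w) :
    Kah S w :=
  ⟨h.smooth, h.posDef, h.closed, fun i j z hz z' hz' γ θ h1 h2 h3 =>
    h.change i j z hz z' hz' 1 θ h1 h2 (h3.mono fun u hu => by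
      show pj K (S.σ i u) = (1 : One1) • pj K (S.σ j (θ u))
      rw [hu, pj_smul, one_act])⟩

theorem dF_em {a : ℕ} (hσ : ∀ i, S'.σ (em i) = S.σ i) (F : E → Fin a → ℂ) (i : Fin S.N)
    (z : Cm d) : dF S' F (em i) z = dF S F i z := by
  unfold dF
  rw [hσ]

/-- **`GenU`** -/
theorem genU_sub {a : ℕ} (hσ : ∀ i, S'.σ (em i) = S.σ i) {F : E → Fin a → ℂ}
    {c : K → Fin a → ℂ} (hF : ∀ j, Add S (fun e => F e j) (fun γ => c γ j))
    {s : Fin S.N → Cm d → Matrix (Fin d) (Fin d) ℂ} (h : GenU (quo S) (dF S F) s) :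
    ∃ s', GenU (quo S') (dF S' F) s' := by
  have hq : HolCompat (quo S) (quo S') := hc_sub (em := em) (quo_σ hσ)
  have hF' : ∀ j, Add S' (fun e => F e j) (fun γ => c γ j) := fun j =>
    add_compat (hc_sub hσ) (hF j)
  have hH : Hol1 (quo S') (dF S' F) := H751.HKT.hol1_dF hF'
  have h1 := H399.HKT.genU_of (holCompat_symm hq) h
  refine ⟨_, H399.HKT.GenU.congr h1 hH fun i z hz => ?_⟩
  obtain ⟨j, z', hz', θ, hθ⟩ := exists_htr' (holCompat_symm hq) i hz
  rw [H399.HKT.pbU_eq h.one hz' hθ]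
  have h2 := hH.change i (em j) z hz z' hz' θ hθ.an hθ.eq (by
    filter_upwards [hθ.ev] with u hu
    rw [hu]
    exact (congrFun (quo_σ hσ j) (θ u)).symm)
  rw [h2]
  exact congrArg (fun A => A * H64.TK.jac θ z) (dF_em hσ F j z')

/-- The metric. -/
theorem pbK_em (hσ : ∀ i, S'.σ (em i) = S.σ i) {w : Fin S.N → Cm d → Matrix (Fin d) (Fin d) ℂ}
    (hw : Kah S w) (i : Fin S.N) {z : Cm d} (hz : z ∈ ball (0 : Cm d) 3) :
    pbK (quo S') (quo S) w (em i) z = w i z := by
  have h1 : H399.TS.HTr (quo S') (quo S) (em i) i z z fun u => u :=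
    ⟨analyticAt_id, rfl, Eventually.of_forall fun u => congrFun (quo_σ hσ i) u⟩
  rw [pbK_eq (kah_quo hw) hz h1, jac_id, hm_one]

end

/-- **R3** -/
theorem xfer : H152.RC.XferStmt := by
  intro a d E K _ _ _ _ _ S S' F c w n ha hB hw hN hσ0
  have h0 : 0 < d := by omega
  let em : Fin S.N → Fin S'.N := fun i => ⟨n + i.val, by have := i.2; omega⟩
  have hσ : ∀ i, S'.σ (em i) = S.σ i := fun i => hσ0 i (em i) rfl
  have hc : HolCompat S S' := hc_sub hσ
  have hq : HolCompat (quo S) (quo S') := hc_sub (em := em) (quo_σ hσ)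
  have hB' : IsBas S' F c := isBas_of hc hB
  have hK : Kah (quo S') (pbK (quo S') (quo S) w) := pbK_kah (holCompat_symm hq) (kah_quo hw)
  refine ⟨hB', fun s hs => genU_sub hσ hB.add hs, pbK (quo S') (quo S) w, kah_of_quo hK,
    fun hR => ?_⟩
  have : T2Space (Qs K E) := t2_quo S
  have hdif : Dif (quo S) (quo S') (Homeomorph.refl (Qs K E)) := by
    refine H511.TS.dif_of_hol (τ := Homeomorph.refl (Qs K E)) fun i j z hz z' hz' he => ?_
    obtain ⟨θ, h1, h2, h3, h4⟩ := hq i j z hz z' hz' 1 (by rw [one_smul]; exact he)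
    refine ⟨θ, ⟨h1, h2, ?_⟩, h3⟩
    filter_upwards [h4] with u hu
    rw [one_smul] at hu
    exact hu
  have hH : Hol1 (quo S) (dF S F) := H751.HKT.hol1_dF hB.add
  have hH' : Hol1 (quo S') (dF S' F) := H751.HKT.hol1_dF hB'.add
  have htr : ∀ {i : Fin (quo S).N} {j : Fin (quo S').N} {z z' : Cm d} {ψ : Cm d → Cm d},
      Tr (quo S) (quo S') (Homeomorph.refl (Qs K E)) i j z z' ψ →
      Tr (quo S') (quo S') id (em i) j z z' ψ := by
    intro i j z z' ψ hψ
    refine ⟨hψ.1, hψ.2.1, ?_⟩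
    filter_upwards [hψ.2.2] with u hu
    show (quo S').σ (em i) u = _
    rw [quo_σ hσ i]
    exact hu
  have hrow : Row (quo S) (quo S') (Homeomorph.refl (Qs K E)) (dF S F) (dF S' F) := by
    intro i j z hz z' hz' ψ hψ r v
    have h1 := (H191.HKT.cl1_row hH' r).change (em i) j z hz z' hz' (mem_univ _) ψ (htr hψ) v
    have h2 : dF S' F (em i) z = dF S F i z := dF_em hσ F i z
    exact (congrArg (fun A => (H191.HKT.row1 A r) v) h2).symm.trans h1
  have hcl := H406.HK.kw_cl2 (kah_quo hw)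
  have hcl' := H406.HK.kw_cl2 hK
  have hpull : Pull2 (quo S) (quo S') (Homeomorph.refl (Qs K E)) (kw w)
      (kw (pbK (quo S') (quo S) w)) := by
    intro i j z hz z' hz' ψ hψ u v
    have h1 := hcl'.change (em i) j z hz z' hz' (mem_univ _) ψ (htr hψ) u v
    have h2 : kw (pbK (quo S') (quo S) w) (em i) z = kw w i z :=
      congrArg kf (pbK_em hσ hw i hz)
    exact (congrArg (fun A : L2 d => A u v) h2).symm.trans h1
  exact ratRad_of h0 hdif hH hH' hrow hcl hcl' hpull hR

end Vale.Agent.P281.H118.RC
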